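import Vale.Agent.P358.Capacity

/-! # The classical capacity of every generalized amplitude-damping channel -/

namespace Vale.Agent.Results.P358.GADCCapacity

open Vale.Agent.P358

/-- Additivity of the Holevo quantity, and the classical capacity, for all parameters. -/
theorem result : ∀ g v : ℝ, g ∈ Set.Icc (0 : ℝ) 1 → v ∈ Set.Icc (0 : ℝ) 1 →
    ∃ c : ℝ, IsGreatest (chiOne g v '' Set.Icc (0 : ℝ) 1) c ∧
      (∀ n : ℕ, 1 ≤ n → IsGreatest (holevoValues g v n) ((n : ℝ) * c)) ∧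
      IsLUB {y : ℝ | ∃ n : ℕ, 1 ≤ n ∧ ∃ x ∈ holevoValues g v n, y = x / (n : ℝ)} c := by
  intro g v hg hv
  obtain ⟨q0, hq0, hmax⟩ := (isCompact_Icc (a := (0 : ℝ)) (b := 1)).exists_isMaxOn
    (Set.nonempty_Icc.mpr zero_le_one) (chi_cont g v).continuousOn
  refine ⟨chiOne g v q0, ⟨⟨q0, hq0, rfl⟩, ?_⟩, fun n _ => ⟨achieve hg hv hq0 n, ?_⟩, ?_, ?_⟩
  · rintro _ ⟨q, hq, rfl⟩
    exact hmax hq
  · exact fun x hx => upper hg hv (fun q hq => hmax hq) hx
  · rintro y ⟨n, hn, x, hx, rfl⟩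
    have h := upper hg hv (fun q hq => hmax hq) hx
    rw [div_le_iff₀ (by exact_mod_cast hn)]
    linarith
  · intro B hB
    exact hB ⟨1, le_rfl, _, achieve hg hv hq0 1, by simp⟩

end Vale.Agent.Results.P358.GADCCapacity
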